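import Mathlib
import Crest.Prelude.Def_EditDistance

/-! Basic facts on edit distance, and a binary encoding of words over `ℕ`. -/

set_option autoImplicit false

namespace Crest.Agent.R210

open Crest.GeometryTopology.EditDistance List

section
variable {α β : Type*}

theorem adj_ins (l r : List α) (a : α) : (editGraph α).Adj (l ++ r) (l ++ a :: r) := by
  rw [editGraph, SimpleGraph.fromRel_adj]
  refine ⟨fun h => ?_, Or.inl (Or.inl ⟨l, r, a, rfl, rfl⟩)⟩
  have := congrArg List.length h
  simp at this

theorem reach_nil (u : List α) : (editGraph α).Reachable [] u := by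
  induction u with
  | nil => rfl
  | cons a u ih => exact ih.trans (adj_ins [] u a).reachable

theorem edit_conn : (editGraph α).Connected :=
  ⟨fun u v => (reach_nil u).symm.trans (reach_nil v)⟩

theorem ed_triangle (u v w : List α) : editDist u w ≤ editDist u v + editDist v w :=
  edit_conn.dist_triangle

theorem ed_comm (u v : List α) : editDist u v = editDist v u := SimpleGraph.dist_comm

theorem ed_self (u : List α) : editDist u u = 0 := SimpleGraph.dist_self

theorem ed_adj {u v : List α} (h : (editGraph α).Adj u v) : editDist u v ≤ 1 :=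
  (SimpleGraph.dist_eq_one_iff_adj.2 h).le

theorem ed_ins (l mid r : List α) : editDist (l ++ r) (l ++ mid ++ r) ≤ mid.length := by
  induction mid with
  | nil => simp [ed_self]
  | cons a mid ih =>
    have h1 := ed_adj (adj_ins l (mid ++ r) a)
    have h2 := ed_triangle (l ++ r) (l ++ (mid ++ r)) (l ++ a :: (mid ++ r))
    simp only [List.append_assoc, List.cons_append, List.length_cons] at ih ⊢
    omega

theorem ed_mid (l mid mid' r : List α) :
    editDist (l ++ mid ++ r) (l ++ mid' ++ r) ≤ mid.length + mid'.length := by
  have h1 := ed_ins l mid r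
  have h2 := ed_ins l mid' r
  have h3 := ed_triangle (l ++ mid ++ r) (l ++ r) (l ++ mid' ++ r)
  rw [ed_comm] at h1
  omega

/-- Two words that differ in a middle part of length at most `C`. -/
def Near (C : ℕ) (u v : List α) : Prop :=
  ∃ l mid mid' r, u = l ++ mid ++ r ∧ v = l ++ mid' ++ r ∧ mid.length ≤ C ∧ mid'.length ≤ C

theorem Near.symm {C : ℕ} {u v : List α} (h : Near C u v) : Near C v u := by
  obtain ⟨l, mid, mid', r, h1, h2, h3, h4⟩ := h
  exact ⟨l, mid', mid, r, h2, h1, h4, h3⟩

theorem near_of_adj {u v : List α} (h : (editGraph α).Adj u v) : Near 1 u v := by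
  rw [editGraph, SimpleGraph.fromRel_adj] at h
  have key : ∀ u v : List α, IsInsertion u v ∨ IsSubstitution u v → Near 1 u v := by
    rintro u v (⟨l, r, a, rfl, rfl⟩ | ⟨l, r, a, b, -, rfl, rfl⟩)
    · exact ⟨l, [], [a], r, by simp, by simp, by simp, by simp⟩
    · exact ⟨l, [a], [b], r, by simp, by simp, by simp, by simp⟩
  rcases h.2 with h | h
  · exact key _ _ h
  · exact (key _ _ h).symm

theorem ed_lip (φ : List α → List β) (C : ℕ)
    (h : ∀ u v, (editGraph α).Adj u v → editDist (φ u) (φ v) ≤ C) (u v : List α) :
    editDist (φ u) (φ v) ≤ C * editDist u v := by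
  obtain ⟨p, hp⟩ := edit_conn.exists_walk_length_eq_dist u v
  rw [editDist.eq_1 u v, ← hp]
  clear hp
  induction p with
  | nil => simp [ed_self]
  | @cons a b c hab p ih =>
    have := ed_triangle (φ a) (φ b) (φ c)
    have := h a b hab
    simp only [SimpleGraph.Walk.length_cons, Nat.mul_add]
    omega

theorem adj_context (l r : List α) {u v : List α} (h : (editGraph α).Adj u v) :
    (editGraph α).Adj (l ++ u ++ r) (l ++ v ++ r) := by
  rw [editGraph, SimpleGraph.fromRel_adj] at h ⊢
  have key : ∀ u v : List α, IsInsertion u v ∨ IsSubstitution u v →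
      IsInsertion (l ++ u ++ r) (l ++ v ++ r) ∨ IsSubstitution (l ++ u ++ r) (l ++ v ++ r) := by
    rintro u v (⟨l', r', a, rfl, rfl⟩ | ⟨l', r', a, b, hab, rfl, rfl⟩)
    · exact Or.inl ⟨l ++ l', r' ++ r, a, by simp, by simp⟩
    · exact Or.inr ⟨l ++ l', r' ++ r, a, b, hab, by simp, by simp⟩
  refine ⟨fun e => h.1 ?_, h.2.imp (key _ _) (key _ _)⟩
  simpa using e

theorem ed_context (l r u v : List α) : editDist (l ++ u ++ r) (l ++ v ++ r) ≤ editDist u v := by
  simpa using ed_lip (fun u => l ++ u ++ r) 1 (fun u v h => ed_adj (adj_context l r h)) u v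

theorem ed_append (a a' b b' : List α) :
    editDist (a ++ b) (a' ++ b') ≤ editDist a a' + editDist b b' := by
  have h1 := ed_context [] b a a'
  have h2 := ed_context a' [] b b'
  have h3 := ed_triangle (a ++ b) (a' ++ b) (a' ++ b')
  simp only [List.nil_append, List.append_nil] at h1 h2
  omega

theorem ed_flatMap {ι : Type*} (L : List ι) (f g : ι → List α) :
    editDist (L.flatMap f) (L.flatMap g) ≤ (L.map fun i => editDist (f i) (g i)).sum := by
  induction L with
  | nil => simp [ed_self]
  | cons i L ih =>
    simp only [List.flatMap_cons, List.map_cons, List.sum_cons]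
    have := ed_append (f i) (g i) (L.flatMap f) (L.flatMap g)
    omega

theorem ed_map (φ : α → β) (u v : List α) : editDist (u.map φ) (v.map φ) ≤ editDist u v := by
  have := ed_lip (fun u => u.map φ) 1 (fun u v h => ?_) u v
  · simpa using this
  rw [editGraph, SimpleGraph.fromRel_adj] at h
  have key : ∀ u v : List α, IsInsertion u v ∨ IsSubstitution u v →
      editDist (u.map φ) (v.map φ) ≤ 1 := by
    rintro u v (⟨l', r', a, rfl, rfl⟩ | ⟨l', r', a, b, hab, rfl, rfl⟩)
    · simpa using ed_adj (adj_ins (l'.map φ) (r'.map φ) (φ a))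
    · by_cases e : φ a = φ b
      · simp [e, ed_self]
      · refine ed_adj ?_
        rw [editGraph, SimpleGraph.fromRel_adj]
        refine ⟨by simpa using e, Or.inl (Or.inr ⟨l'.map φ, r'.map φ, φ a, φ b, e, by simp, by simp⟩)⟩
  rcases h.2 with h | h
  · exact key _ _ h
  · rw [ed_comm]; exact key _ _ h

theorem ed_code (code : α → List β) (lam : ℕ) (h : ∀ a, (code a).length = lam) (u v : List α) :
    editDist (u.flatMap code) (v.flatMap code) ≤ 2 * lam * editDist u v := by
  refine ed_lip (fun u => u.flatMap code) (2 * lam) (fun u v huv => ?_) u v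
  obtain ⟨l, mid, mid', r, rfl, rfl, h1, h2⟩ := near_of_adj huv
  simp only [List.flatMap_append]
  refine (ed_mid _ _ _ _).trans ?_
  have key : ∀ m : List α, m.length ≤ 1 → (m.flatMap code).length ≤ lam := by
    intro m hm
    match m, hm with
    | [], _ => simp
    | [a], _ => simp [h]
  have := key _ h1
  have := key _ h2
  omega

theorem ed_shift (S : ℕ → List α) (len : ℕ) (hS : ∀ t, (S t).length = len) (N u : ℕ) :
    editDist ((List.range N).flatMap S) ((List.range N).flatMap fun t => S (t + u)) ≤
      2 * u * len := by
  have hl : ∀ (L : List ℕ) (S' : ℕ → List α), (∀ t, (S' t).length = len) →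
      (L.flatMap S').length = L.length * len := by
    intro L S' h
    induction L with
    | nil => simp
    | cons a L ih => simp only [List.flatMap_cons, List.length_append, ih, h, List.length_cons]; ring
  have e1 : (List.range (N + u)).flatMap S =
      (List.range N).flatMap S ++ (List.range u).flatMap fun t => S (N + t) := by
    rw [List.range_add, List.flatMap_append, List.flatMap_map]
  have e2 : (List.range (N + u)).flatMap S =
      (List.range u).flatMap S ++ (List.range N).flatMap fun t => S (t + u) := by
    rw [add_comm N u, List.range_add, List.flatMap_append, List.flatMap_map]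
    simp only [add_comm u]
  have h1 := ed_ins ((List.range N).flatMap S) ((List.range u).flatMap fun t => S (N + t)) []
  have h2 := ed_ins [] ((List.range u).flatMap S) ((List.range N).flatMap fun t => S (t + u))
  simp only [List.append_nil, List.nil_append] at h1 h2
  rw [← e1, hl _ _ (fun t => hS _), List.length_range] at h1
  rw [← e2, hl _ _ hS, List.length_range, ed_comm] at h2
  have h3 := ed_triangle ((List.range N).flatMap S) ((List.range (N + u)).flatMap S)
    ((List.range N).flatMap fun t => S (t + u))
  nlinarith

theorem sub_of_near {C : ℕ} {u v w : List α} (h : Near C u v) (hw : w <+ u) :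
    ∃ w', w' <+ w ∧ w' <+ v ∧ w.length ≤ w'.length + C := by
  obtain ⟨l, mid, mid', r, rfl, rfl, h1, -⟩ := h
  obtain ⟨w12, w3, rfl, h12, h3⟩ := List.sublist_append_iff.1 hw
  obtain ⟨w1, w2, rfl, h1', h2⟩ := List.sublist_append_iff.1 h12
  refine ⟨w1 ++ w3, ?_, ?_, ?_⟩
  · exact (List.sublist_append_left _ _).append_right _
  · exact (h1'.trans (List.sublist_append_left _ _)).append h3
  · have := h2.length_le
    simp only [List.length_append]
    omega

theorem sub_of_dec (D : List α → List β) (C : ℕ)
    (hD : ∀ u v, (editGraph α).Adj u v → Near C (D u) (D v)) (u v : List α) :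
    ∃ w, w <+ D u ∧ w <+ D v ∧ (D u).length ≤ w.length + C * editDist u v := by
  obtain ⟨p, hp⟩ := edit_conn.exists_walk_length_eq_dist u v
  rw [editDist.eq_1 u v, ← hp]
  clear hp
  suffices H : ∀ w0, w0 <+ D u → ∃ w, w <+ w0 ∧ w <+ D v ∧ w0.length ≤ w.length + C * p.length from
    H _ (List.Sublist.refl _)
  induction p with
  | nil => intro w0 h; exact ⟨w0, List.Sublist.refl _, h, by simp⟩
  | @cons a b c hab p ih =>
    intro w0 h
    obtain ⟨w1, h1, h2, h3⟩ := sub_of_near (hD a b hab) h
    obtain ⟨w2, h4, h5, h6⟩ := ih w1 h2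
    refine ⟨w2, h4.trans h1, h5, ?_⟩
    simp only [SimpleGraph.Walk.length_cons, Nat.mul_add]
    omega

/-- Splitting at separators: the first piece and the remaining pieces. -/
def sp (p : α → Bool) : List α → List α × List (List α)
  | [] => ([], [])
  | a :: l => if p a then ([], (sp p l).1 :: (sp p l).2) else (a :: (sp p l).1, (sp p l).2)

/-- All pieces. -/
def spl (p : α → Bool) (l : List α) : List (List α) := (sp p l).1 :: (sp p l).2

theorem spl_append (p : α → Bool) (l : List α) :
    ∃ F z, ∀ r, spl p (l ++ r) = F ++ (z ++ (sp p r).1) :: (sp p r).2 := by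
  induction l with
  | nil => exact ⟨[], [], fun r => by simp [spl]⟩
  | cons a l ih =>
    obtain ⟨F, z, h⟩ := ih
    by_cases ha : p a = true
    · refine ⟨[] :: F, z, fun r => ?_⟩
      have := h r
      simp only [spl] at this
      simp [spl, sp, ha, this]
    · cases F with
      | nil =>
        refine ⟨[], a :: z, fun r => ?_⟩
        have := h r
        simp only [spl, List.nil_append, List.cons.injEq] at this
        simp [spl, sp, ha, this]
      | cons y F =>
        refine ⟨(a :: y) :: F, z, fun r => ?_⟩
        have := h r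
        simp only [spl, List.cons_append, List.cons.injEq] at this
        simp [spl, sp, ha, this]

theorem sp_snd_append (p : α → Bool) (mid r : List α) :
    ∃ Z, (sp p (mid ++ r)).2 = Z ++ (sp p r).2 ∧ Z.length ≤ mid.length := by
  induction mid with
  | nil => exact ⟨[], by simp, by simp⟩
  | cons a mid ih =>
    obtain ⟨Z, h1, h2⟩ := ih
    by_cases ha : p a = true
    · exact ⟨(sp p (mid ++ r)).1 :: Z, by simp [sp, ha, h1], by simpa using h2⟩
    · exact ⟨Z, by simp [sp, ha, h1], by simp; omega⟩

theorem near_spl (p : α → Bool) {C : ℕ} {u v : List α} (h : Near C u v) :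
    Near (C + 1) (spl p u) (spl p v) := by
  obtain ⟨l, mid, mid', r, rfl, rfl, h1, h2⟩ := h
  obtain ⟨F, z, hF⟩ := spl_append p l
  obtain ⟨Z, hZ, hZ'⟩ := sp_snd_append p mid r
  obtain ⟨Y, hY, hY'⟩ := sp_snd_append p mid' r
  refine ⟨F, (z ++ (sp p (mid ++ r)).1) :: Z, (z ++ (sp p (mid' ++ r)).1) :: Y, (sp p r).2,
    ?_, ?_, by simp; omega, by simp; omega⟩
  · rw [List.append_assoc, hF, hZ]; simp
  · rw [List.append_assoc, hF, hY]; simp

theorem sp_append_of_not (p : α → Bool) (y r : List α) (hy : ∀ a ∈ y, p a = false) :
    sp p (y ++ r) = (y ++ (sp p r).1, (sp p r).2) := by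
  induction y with
  | nil => simp
  | cons a y ih =>
    have h1 := ih fun b hb => hy b (List.mem_cons_of_mem _ hb)
    have h2 := hy a (List.mem_cons_self ..)
    simp [sp, h1, h2]

/-- Concatenation with a separator in front of every piece. -/
def cat (sep : α) (L : List (List α)) : List α := L.flatMap fun y => sep :: y

theorem sp_cat (p : α → Bool) (sep : α) (hsep : p sep = true) (L : List (List α))
    (hL : ∀ y ∈ L, ∀ a ∈ y, p a = false) : sp p (cat sep L) = ([], L) := by
  induction L with
  | nil => simp [cat, sp]
  | cons y L ih =>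
    have h1 := ih fun z hz => hL z (List.mem_cons_of_mem _ hz)
    have h2 := sp_append_of_not p y (cat sep L) (hL y (List.mem_cons_self ..))
    have e : cat sep (y :: L) = sep :: (y ++ cat sep L) := by simp [cat]
    rw [e]
    simp [sp, hsep, h1, h2]

end

/-- Tokens of one bit. -/
def tokBit (b : Bool) : List (List Bool) :=
  if b then [[false], [false, false]] else [[false, false], [false]]

/-- Tokens of a symbol. -/
def tok (β s : ℕ) : List (List Bool) := (List.range β).flatMap fun i => tokBit (s.testBit i)

/-- Binary code of a symbol. -/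
def code (β s : ℕ) : List Bool := cat true ([false, false, false] :: tok β s)

theorem code_length (β s : ℕ) : (code β s).length = 5 * β + 4 := by
  have : ∀ L : List ℕ, (cat true (L.flatMap fun i => tokBit (s.testBit i))).length = 5 * L.length := by
    intro L
    induction L with
    | nil => simp [cat]
    | cons i L ih =>
      simp only [cat, List.flatMap_cons, List.flatMap_append, List.length_append,
        List.length_cons] at ih ⊢
      rw [ih]
      cases s.testBit i <;> simp [tokBit] <;> omega
  have h := this (List.range β)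
  simp only [code, tok, cat, List.flatMap_cons, List.length_append, List.length_cons,
    List.length_range, List.length_nil] at h ⊢
  omega

theorem tok_inj (β s s' : ℕ) (hs : s < 2 ^ β) (hs' : s' < 2 ^ β) (h : tok β s = tok β s') :
    s = s' := by
  have key : ∀ L : List ℕ, (L.flatMap fun i => tokBit (s.testBit i)) =
      (L.flatMap fun i => tokBit (s'.testBit i)) → ∀ i ∈ L, s.testBit i = s'.testBit i := by
    intro L
    induction L with
    | nil => simp
    | cons j L ih =>
      intro h
      simp only [List.flatMap_cons] at h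
      have hlen : (tokBit (s.testBit j)).length = (tokBit (s'.testBit j)).length := by
        cases s.testBit j <;> cases s'.testBit j <;> rfl
      obtain ⟨h1, h2⟩ := List.append_inj h hlen
      intro i hi
      rcases List.mem_cons.1 hi with rfl | hi
      · revert h1
        cases s.testBit i <;> cases s'.testBit i <;> simp [tokBit]
      · exact ih h2 i hi
  refine Nat.eq_of_testBit_eq fun i => ?_
  by_cases hi : i < β
  · exact key _ h i (List.mem_range.2 hi)
  · have h1 : 2 ^ β ≤ 2 ^ i := Nat.pow_le_pow_right two_pos (by omega)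
    rw [Nat.testBit_lt_two_pow (by omega), Nat.testBit_lt_two_pow (by omega)]

/-- The decoder. -/
def dec (u : List Bool) : List (List (List Bool)) :=
  spl (fun y => y == [false, false, false]) (spl id u)

theorem mem_tok {β s : ℕ} {y : List Bool} (h : y ∈ tok β s) : y = [false] ∨ y = [false, false] := by
  simp only [tok, List.mem_flatMap] at h
  obtain ⟨i, -, h⟩ := h
  revert h
  cases s.testBit i <;> simp [tokBit] <;> tauto

theorem dec_code (β : ℕ) (A : List ℕ) : dec (A.flatMap (code β)) = [[]] :: A.map (tok β) := by
  have e : A.flatMap (code β) = cat true (cat [false, false, false] (A.map (tok β))) := by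
    simp only [cat, List.flatMap_assoc, List.flatMap_map]
    rfl
  have h1 := sp_cat id true rfl (cat [false, false, false] (A.map (tok β))) (by
    intro y hy a ha
    simp only [cat, List.mem_flatMap, List.mem_map, List.mem_cons] at hy
    obtain ⟨z, ⟨s, -, rfl⟩, hy⟩ := hy
    rcases hy with rfl | hy
    · simpa using ha
    · rcases mem_tok hy with rfl | rfl <;> simpa using ha)
  have h2 := sp_cat (fun y => y == [false, false, false]) [false, false, false] (by simp)
    (A.map (tok β)) (by
    intro y hy a ha
    simp only [List.mem_map] at hy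
    obtain ⟨s, -, rfl⟩ := hy
    rcases mem_tok ha with rfl | rfl <;> simp)
  rw [dec, e]
  simp [spl, h1, sp, h2]

theorem sub_of_code (β : ℕ) (A B : List ℕ) (hA : ∀ s ∈ A, s < 2 ^ β) (hB : ∀ s ∈ B, s < 2 ^ β) :
    ∃ w, w <+ A ∧ w <+ B ∧
      A.length ≤ w.length + 3 * editDist (A.flatMap (code β)) (B.flatMap (code β)) := by
  obtain ⟨w, h1, h2, h3⟩ := sub_of_dec dec 3
    (fun u v h => near_spl _ (near_spl _ (near_of_adj h))) (A.flatMap (code β)) (B.flatMap (code β))
  rw [dec_code] at h1 h2 h3
  obtain ⟨wA, hA1, hA2⟩ := List.sublist_map_iff.1 h1.tail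
  obtain ⟨wB, hB1, hB2⟩ := List.sublist_map_iff.1 h2.tail
  have e : wA = wB := by
    have h := hA2.symm.trans hB2
    have hA' : ∀ s ∈ wA, s < 2 ^ β := fun s hs => hA s (hA1.subset hs)
    have hB' : ∀ s ∈ wB, s < 2 ^ β := fun s hs => hB s (hB1.subset hs)
    clear hA1 hA2 hB1 hB2
    induction wA generalizing wB with
    | nil => simpa using h.symm
    | cons a wA ih =>
      cases wB with
      | nil => simp at h
      | cons b wB =>
        simp only [List.map_cons, List.cons.injEq] at h
        rw [tok_inj β a b (hA' a (by simp)) (hB' b (by simp)) h.1,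
          ih wB h.2 (fun s hs => hA' s (by simp [hs])) (fun s hs => hB' s (by simp [hs]))]
  refine ⟨wA, hA1, e ▸ hB1, ?_⟩
  have := congrArg List.length hA2
  simp only [List.length_tail, List.length_map, List.length_cons] at this h3
  omega

end Crest.Agent.R210
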