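import Mathlib

/-! Common subsequences of tagged and marked concatenations. -/

set_option autoImplicit false

namespace Crest.Agent.R210

open List

/-- Every common subsequence of `A` and `B` misses at least `γ` symbols of `A`. -/
def Far (A B : List ℕ) (γ : ℝ) : Prop :=
  ∀ w, w <+ A → w <+ B → (w.length : ℝ) + γ ≤ A.length

/-- Tagging a symbol with a child index. -/
def tag (m i s : ℕ) : ℕ := s * (m + 1) + (i + 1)

theorem tag_mod {m i : ℕ} (hi : i < m) (s : ℕ) : tag m i s % (m + 1) = i + 1 := by
  unfold tag
  rw [add_comm, Nat.add_mul_mod_self_right, Nat.mod_eq_of_lt (by omega)]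

theorem tag_inj (m i : ℕ) : Function.Injective (tag m i) := by
  intro s s' h
  unfold tag at h
  exact Nat.eq_of_mul_eq_mul_right (Nat.succ_pos m) (Nat.add_right_cancel h)

/-- Concatenation of the tagged children. -/
def sup (m : ℕ) (A : Fin m → List ℕ) : List ℕ :=
  (List.finRange m).flatMap fun i => (A i).map (tag m i)

theorem length_flatMap_const {ι α : Type*} (L : List ι) (S : ι → List α) (len : ℕ)
    (h : ∀ t, (S t).length = len) : (L.flatMap S).length = L.length * len := by
  induction L with
  | nil => simp
  | cons a L ih => simp only [List.flatMap_cons, List.length_append, ih, h, List.length_cons]; ring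

theorem sup_length (m l : ℕ) (A : Fin m → List ℕ) (h : ∀ i, (A i).length = l) :
    (sup m A).length = m * l := by
  unfold sup
  rw [length_flatMap_const _ _ l (fun i => by simp [h]), List.length_finRange]

theorem mem_sup {m : ℕ} {A : Fin m → List ℕ} {s : ℕ} (h : s ∈ sup m A) :
    ∃ i : Fin m, ∃ s' ∈ A i, s = tag m i s' := by
  simp only [sup, List.mem_flatMap, List.mem_map] at h
  obtain ⟨i, -, s', h1, h2⟩ := h
  exact ⟨i, s', h1, h2.symm⟩

theorem zero_not_mem_sup (m : ℕ) (A : Fin m → List ℕ) : 0 ∉ sup m A := by
  intro h
  obtain ⟨i, s, -, h⟩ := mem_sup h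
  unfold tag at h
  omega

theorem sup_filter (m : ℕ) (A : Fin m → List ℕ) (i : Fin m) :
    (sup m A).filter (fun s => s % (m + 1) == i + 1) = (A i).map (tag m i) := by
  have key : ∀ L : List (Fin m), L.Nodup →
      (L.flatMap fun j => (A j).map (tag m j)).filter (fun s => s % (m + 1) == i + 1) =
        if i ∈ L then (A i).map (tag m i) else [] := by
    intro L
    induction L with
    | nil => simp
    | cons j L ih =>
      intro hL
      rw [List.nodup_cons] at hL
      rw [List.flatMap_cons, List.filter_append, ih hL.2]
      by_cases hij : i = j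
      · subst hij
        rw [if_neg hL.1, if_pos (List.mem_cons_self ..), List.append_nil, List.filter_eq_self]
        intro s hs
        obtain ⟨s', -, rfl⟩ := List.mem_map.1 hs
        simp [tag_mod i.2]
      · have : ((A j).map (tag m j)).filter (fun s => s % (m + 1) == i + 1) = [] := by
          rw [List.filter_eq_nil_iff]
          intro s hs
          obtain ⟨s', -, rfl⟩ := List.mem_map.1 hs
          simp only [tag_mod j.2, beq_iff_eq, Nat.add_right_cancel_iff]
          exact fun e => hij (Fin.ext e.symm)
        rw [this]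
        simp [hij]
  rw [sup, key _ (List.nodup_finRange m), if_pos (List.mem_finRange i)]

theorem length_eq_sum_filter (m : ℕ) (w : List ℕ) (h : ∀ s ∈ w, ∃ i : Fin m, s % (m + 1) = i + 1) :
    w.length = ∑ i : Fin m, (w.filter fun s => s % (m + 1) == i + 1).length := by
  induction w with
  | nil => simp
  | cons a w ih =>
    obtain ⟨j, hj⟩ := h a (List.mem_cons_self ..)
    have e : ∀ i : Fin m, ((a :: w).filter fun s => s % (m + 1) == i + 1).length =
        (if i = j then 1 else 0) + (w.filter fun s => s % (m + 1) == i + 1).length := by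
      intro i
      by_cases hij : i = j
      · subst hij; simp [hj, add_comm]
      · have : ¬ (j : ℕ) = i := fun e => hij (Fin.ext e.symm)
        simp [hj, hij, this]
    simp only [e, Finset.sum_add_distrib, Finset.sum_ite_eq', Finset.mem_univ, if_true]
    rw [← ih fun s hs => h s (List.mem_cons_of_mem _ hs), List.length_cons, add_comm]

theorem far_sup (m l : ℕ) (γ : ℝ) (A B : Fin m → List ℕ) (hA : ∀ i, (A i).length = l)
    (I : Finset (Fin m)) (hI : ∀ i ∈ I, Far (A i) (B i) γ) (w : List ℕ) (h1 : w <+ sup m A)
    (h2 : w <+ sup m B) : (w.length : ℝ) + I.card * γ ≤ m * l := by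
  classical
  have e := length_eq_sum_filter m w fun s hs => by
    obtain ⟨i, s', -, rfl⟩ := mem_sup (h1.subset hs)
    exact ⟨i, tag_mod i.2 _⟩
  have key : ∀ i : Fin m, ((w.filter fun s => s % (m + 1) == i + 1).length : ℝ) +
      (if i ∈ I then γ else 0) ≤ l := by
    intro i
    have a1 := h1.filter fun s => s % (m + 1) == i + 1
    have a2 := h2.filter fun s => s % (m + 1) == i + 1
    rw [sup_filter] at a1 a2
    obtain ⟨wA, hA1, hA2⟩ := List.sublist_map_iff.1 a1
    obtain ⟨wB, hB1, hB2⟩ := List.sublist_map_iff.1 a2
    have e : wA = wB := List.map_injective_iff.2 (tag_inj m i) (hA2.symm.trans hB2)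
    rw [hA2, List.length_map, ← hA i]
    split_ifs with hi
    · exact hI i hi wA hA1 (e ▸ hB1)
    · rw [add_zero]; exact_mod_cast hA1.length_le
  have := Finset.sum_le_sum (s := Finset.univ) fun i _ => key i
  rw [Finset.sum_add_distrib, ← Finset.sum_filter] at this
  simp only [Finset.filter_mem_eq_inter, Finset.univ_inter, Finset.sum_const, nsmul_eq_mul,
    Finset.card_univ, Fintype.card_fin] at this
  rw [e]
  push_cast
  exact this

theorem sub_of_zero {w X : List ℕ} (hw : 0 ∉ w) (h : w <+ X) : w <+ X.filter (· != 0) := by
  have := h.filter (· != 0)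
  rwa [List.filter_eq_self.2 (fun a ha => by
    simp only [bne_iff_ne, ne_eq]; rintro rfl; exact hw ha)] at this

theorem infix_cases (L : ℕ) (Xs : List (List ℕ)) (C w : List ℕ) (hw : 0 ∉ w)
    (hC : C <:+: Xs.flatMap fun X => X ++ List.replicate L 0) (h : w <+ C) :
    w = [] ∨ (∃ X ∈ Xs, w <+ X) ∨ w.length + L ≤ C.length := by
  induction Xs generalizing C with
  | nil =>
    left
    simp only [List.flatMap_nil, List.infix_nil] at hC
    subst hC
    simpa using h
  | cons X Xs ih =>
    rw [List.flatMap_cons, List.infix_append_iff] at hC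
    have hM : (List.replicate L 0).filter (· != 0) = [] := by simp
    rcases hC with hC | hC | ⟨l₁, l₂, rfl, h1, h2⟩
    · right; left
      refine ⟨X, List.mem_cons_self .., ?_⟩
      have := sub_of_zero hw (h.trans hC.sublist)
      rw [List.filter_append, hM, List.append_nil] at this
      exact this.trans List.filter_sublist
    · rcases ih C hC h with h' | ⟨Y, hY, h'⟩ | h'
      · exact Or.inl h'
      · exact Or.inr (Or.inl ⟨Y, List.mem_cons_of_mem _ hY, h'⟩)
      · exact Or.inr (Or.inr h')
    · rcases List.suffix_or_suffix_of_suffix h1 (List.suffix_append X (List.replicate L 0)) with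
        h3 | ⟨X', rfl⟩
      · have h4 := sub_of_zero hw h
        have h5 : l₁.filter (· != 0) = [] := by
          have := h3.sublist.filter (· != 0)
          rwa [hM, List.sublist_nil] at this
        rw [List.filter_append, h5, List.nil_append] at h4
        rcases ih l₂ h2.isInfix (h4.trans List.filter_sublist) with h' | ⟨Y, hY, h'⟩ | h'
        · exact Or.inl h'
        · exact Or.inr (Or.inl ⟨Y, List.mem_cons_of_mem _ hY, h'⟩)
        · right; right; simp only [List.length_append]; omega
      · right; right
        have h4 := (sub_of_zero hw h).length_le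
        rw [List.filter_append, List.filter_append, hM] at h4
        have := List.length_filter_le (· != 0) X'
        have := List.length_filter_le (· != 0) l₂
        simp only [List.length_append, List.length_replicate, List.length_nil] at h4 ⊢
        omega

theorem far_concat (L : ℕ) (γ : ℝ) (hγ : γ ≤ L) (As Bs : List (List ℕ))
    (hA0 : ∀ X ∈ As, 0 ∉ X) (hAL : ∀ X ∈ As, X.length = L)
    (hAB : ∀ X ∈ As, ∀ Y ∈ Bs, ∀ w, w <+ X → w <+ Y → (w.length : ℝ) + γ ≤ L)
    (C w : List ℕ) (hC : C <:+: Bs.flatMap fun X => X ++ List.replicate L 0)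
    (h1 : w <+ As.flatMap fun X => X ++ List.replicate L 0) (h2 : w <+ C) :
    2 * (w.length : ℝ) + As.length * γ ≤ As.length * (2 * L) + C.length := by
  induction As generalizing C w with
  | nil =>
    simp only [List.flatMap_nil, List.sublist_nil] at h1
    subst h1
    simp
  | cons X As ih =>
    rw [List.flatMap_cons] at h1
    obtain ⟨w12, w3, rfl, h12, h3⟩ := List.sublist_append_iff.1 h1
    obtain ⟨w1, w2, rfl, h1', h2'⟩ := List.sublist_append_iff.1 h12
    obtain ⟨C12, C3, rfl, g12, g3⟩ := List.append_sublist_iff.1 h2
    obtain ⟨C1, C2, rfl, g1, g2⟩ := List.append_sublist_iff.1 g12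
    have i3 := ih (fun Y hY => hA0 Y (List.mem_cons_of_mem _ hY))
      (fun Y hY => hAL Y (List.mem_cons_of_mem _ hY))
      (fun Y hY => hAB Y (List.mem_cons_of_mem _ hY)) C3 w3
      ((List.suffix_append _ _).isInfix.trans hC) h3 g3
    have hX := hAL X (List.mem_cons_self ..)
    have a1 : (w1.length : ℝ) ≤ L := by exact_mod_cast hX ▸ h1'.length_le
    have a2 : (w1.length : ℝ) ≤ C1.length := by exact_mod_cast g1.length_le
    have a3 : (w2.length : ℝ) ≤ L := by
      have := h2'.length_le
      rw [List.length_replicate] at this
      exact_mod_cast this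
    have a4 : (w2.length : ℝ) ≤ C2.length := by exact_mod_cast g2.length_le
    have a5 : 2 * (w1.length : ℝ) + γ ≤ L + C1.length := by
      have hC1 : C1 <:+: Bs.flatMap fun X => X ++ List.replicate L 0 :=
        ((List.prefix_append C1 C2).trans (List.prefix_append _ C3)).isInfix.trans hC
      rcases infix_cases L Bs C1 w1
        (fun h => hA0 X (List.mem_cons_self ..) (h1'.subset h)) hC1 g1 with h | ⟨Y, hY, h⟩ | h
      · subst h
        simp only [List.length_nil, Nat.cast_zero, mul_zero, zero_add]
        linarith [Nat.cast_nonneg (α := ℝ) C1.length]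
      · have := hAB X (List.mem_cons_self ..) Y hY w1 h1' h
        linarith
      · have : (w1.length : ℝ) + L ≤ C1.length := by exact_mod_cast h
        linarith
    simp only [List.length_append, List.length_cons]
    push_cast
    linarith

end Crest.Agent.R210
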