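import Mathlib

/-! Negative type of `ℓ¹` and the Fourier representation on a finite abelian group. -/

set_option autoImplicit false

namespace Crest.Agent.R210

open Finset MeasureTheory

theorem neg_type_real {X : Type*} [Fintype X] (a u : X → ℝ) (hu : ∑ x, u x = 0) :
    ∑ x, ∑ y, u x * u y * |a x - a y| ≤ 0 := by
  obtain ⟨lo, hlo⟩ : ∃ lo, ∀ x, lo ≤ a x := by
    obtain ⟨lo, h⟩ := (Set.finite_range a).bddBelow
    exact ⟨lo, fun x => h ⟨x, rfl⟩⟩
  let φ : X → ℝ → ℝ := fun x => (Set.Ioc lo (a x)).indicator 1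
  have hmul : ∀ x y, (fun t => φ x t * φ y t) = (Set.Ioc lo (min (a x) (a y))).indicator 1 := by
    intro x y
    ext t
    simp only [φ, Set.indicator, Set.mem_Ioc, le_min_iff, Pi.one_apply]
    split_ifs <;> simp_all
  have hint : ∀ x y, Integrable fun t => φ x t * φ y t := by
    intro x y
    rw [hmul]
    exact (integrable_indicator_iff measurableSet_Ioc).2 (integrableOn_const (by simp))
  have hval : ∀ x y, ∫ t, φ x t * φ y t = min (a x) (a y) - lo := by
    intro x y
    rw [hmul, integral_indicator_one measurableSet_Ioc, Real.volume_real_Ioc_of_le]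
    exact le_min (hlo x) (hlo y)
  have h1 : 0 ≤ ∑ x, ∑ y, u x * u y * (min (a x) (a y) - lo) := by
    have : ∑ x, ∑ y, u x * u y * (min (a x) (a y) - lo) = ∫ t, (∑ x, u x * φ x t) ^ 2 := by
      have e : ∀ t, (∑ x, u x * φ x t) ^ 2 = ∑ x, ∑ y, u x * u y * (φ x t * φ y t) := by
        intro t
        rw [sq, sum_mul_sum]
        exact sum_congr rfl fun x _ => sum_congr rfl fun y _ => by ring
      simp only [e]
      rw [integral_finsetSum _ fun x _ =>
        integrable_finsetSum _ fun y _ => (hint x y).const_mul _]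
      refine sum_congr rfl fun x _ => ?_
      rw [integral_finsetSum _ fun y _ => (hint x y).const_mul _]
      refine sum_congr rfl fun y _ => ?_
      rw [integral_const_mul, hval]
    rw [this]
    exact integral_nonneg fun t => sq_nonneg _
  have h2 : ∀ x y, u x * u y * |a x - a y| =
      u y * (u x * (a x - lo)) + u x * (u y * (a y - lo)) -
        2 * (u x * u y * (min (a x) (a y) - lo)) := by
    intro x y
    rcases le_total (a x) (a y) with h | h
    · rw [abs_of_nonpos (by linarith), min_eq_left h]; ring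
    · rw [abs_of_nonneg (by linarith), min_eq_right h]; ring
  simp only [h2, sum_sub_distrib, sum_add_distrib, ← sum_mul, ← mul_sum, hu]
  linarith

theorem neg_type_l1 {X : Type*} [Fintype X] (F : X → lp (fun _ : ℕ => ℝ) 1) (u : X → ℝ)
    (hu : ∑ x, u x = 0) : ∑ x, ∑ y, u x * u y * ‖F x - F y‖ ≤ 0 := by
  have h1 : ∀ g : lp (fun _ : ℕ => ℝ) 1, HasSum (fun n => |g n|) ‖g‖ := by
    intro g
    have := lp.hasSum_norm (p := 1) (by simp) g
    simpa using this
  have h2 : HasSum (fun n => ∑ x, ∑ y, u x * u y * |F x n - F y n|)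
      (∑ x, ∑ y, u x * u y * ‖F x - F y‖) := by
    refine hasSum_sum fun x _ => hasSum_sum fun y _ => HasSum.mul_left _ ?_
    simpa using h1 (F x - F y)
  exact h2.nonpos fun n => neg_type_real (fun x => F x n) u hu

theorem re_mul_re {X : Type*} [AddCommGroup X] [Finite X] (ψ : AddChar X ℂ) (a b : X) :
    (ψ b).re * (ψ a).re = ((ψ (b + a)).re + (ψ (b - a)).re) / 2 := by
  rw [sub_eq_add_neg, AddChar.map_add_eq_mul, AddChar.map_add_eq_mul, AddChar.map_neg_eq_conj]
  simp

theorem fourier_rep {X : Type*} [AddCommGroup X] [Fintype X] (F : X → lp (fun _ : ℕ => ℝ) 1) :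
    ∃ c : AddChar X ℂ → ℝ, (∀ ψ, 0 ≤ c ψ) ∧
      ∀ a, ∑ x, ‖F (x + a) - F x‖ = ∑ ψ, c ψ * (1 - (ψ a).re) := by
  classical
  set ρ : X → ℝ := fun a => ∑ x, ‖F (x + a) - F x‖ with hρ
  have hN : (0 : ℝ) < Fintype.card X := by exact_mod_cast Fintype.card_pos
  refine ⟨fun ψ => if ψ = 0 then 0 else -(∑ b, ρ b * (ψ b).re) / Fintype.card X, ?_, ?_⟩
  · intro ψ
    dsimp only
    split_ifs with h
    · exact le_rfl
    · have h0 : ∑ x, ψ x = 0 := AddChar.sum_eq_zero_iff_ne_zero.2 h
      have h1 := neg_type_l1 F (fun x => (ψ x).re) (by rw [← Complex.re_sum, h0]; simp)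
      have h2 := neg_type_l1 F (fun x => (ψ x).im) (by rw [← Complex.im_sum, h0]; simp)
      have h3 : ∑ b, ρ b * (ψ b).re = ∑ x, ∑ y, (ψ x).re * (ψ y).re * ‖F x - F y‖ +
          ∑ x, ∑ y, (ψ x).im * (ψ y).im * ‖F x - F y‖ := by
        simp only [hρ, sum_mul]
        rw [sum_comm, ← sum_add_distrib]
        refine sum_congr rfl fun x _ => ?_
        rw [← sum_add_distrib]
        symm
        refine Fintype.sum_equiv (Equiv.subRight x) _ _ fun y => ?_
        simp only [Equiv.subRight_apply, add_sub_cancel]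
        rw [sub_eq_add_neg y x, AddChar.map_add_eq_mul, AddChar.map_neg_eq_conj, norm_sub_rev]
        simp only [Complex.mul_re, Complex.conj_re, Complex.conj_im]
        ring
      refine div_nonneg ?_ hN.le
      linarith
  · intro a
    have hsum : ∀ b : X, ∑ ψ : AddChar X ℂ, (ψ b).re = if b = 0 then (Fintype.card X : ℝ) else 0 := by
      intro b
      rw [← Complex.re_sum, AddChar.sum_apply_eq_ite]
      split_ifs <;> simp
    have e1 : ∀ ψ : AddChar X ℂ,
        (if ψ = 0 then 0 else -(∑ b, ρ b * (ψ b).re) / Fintype.card X) * (1 - (ψ a).re) =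
        (∑ b, ρ b * (((ψ (b + a)).re + (ψ (b - a)).re) / 2 - (ψ b).re)) / Fintype.card X := by
      intro ψ
      split_ifs with h
      · subst h; simp
      · simp only [← re_mul_re]
        rw [div_mul_eq_mul_div, neg_mul, sum_mul, ← sum_neg_distrib]
        congr 1
        exact sum_congr rfl fun b _ => by ring
    simp only [e1]
    rw [← sum_div, sum_comm, eq_div_iff hN.ne']
    simp only [← mul_sum, sum_sub_distrib, ← sum_div, sum_add_distrib, hsum]
    have hρ0 : ρ 0 = 0 := by simp [hρ]
    have hρneg : ρ (-a) = ρ a := by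
      simp only [hρ]
      refine Fintype.sum_equiv (Equiv.subRight a) _ _ fun y => ?_
      simp only [Equiv.subRight_apply, sub_add_cancel, ← sub_eq_add_neg]
      rw [norm_sub_rev]
    simp only [mul_sub, add_div, mul_add, sum_sub_distrib, sum_add_distrib, add_eq_zero_iff_eq_neg,
      sub_eq_zero, mul_div_assoc', mul_ite, mul_zero, ← sum_div, sum_ite_eq', mem_univ, if_true,
      hρ0, hρneg]
    change ρ a * _ = _
    ring

theorem re_le_one {X : Type*} [AddCommGroup X] [Finite X] (ψ : AddChar X ℂ) (a : X) :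
    |(ψ a).re| ≤ 1 := by
  have := Complex.abs_re_le_norm (ψ a)
  rwa [AddChar.norm_apply] at this

/-- Sums of powers of a non-trivial root of unity. -/
theorem root_sum (z : ℂ) (hz : ‖z‖ = 1) (hz1 : z ≠ 1) (Q : ℕ) (hQ : 0 < Q) (hzQ : z ^ Q = 1)
    (T : ℕ) : ‖∑ t ∈ range T, z ^ t‖ ≤ Q := by
  have h0 : ∑ t ∈ range Q, z ^ t = 0 := by
    have := mul_geom_sum z Q
    rw [hzQ, sub_self] at this
    exact (mul_eq_zero.1 this).resolve_left (sub_ne_zero.2 hz1)
  induction T using Nat.strong_induction_on with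
  | _ T ih =>
    by_cases hT : T ≤ Q
    · refine (norm_sum_le _ _).trans ?_
      simp only [norm_pow, hz, one_pow, sum_const, card_range, nsmul_eq_mul, mul_one]
      exact_mod_cast hT
    · obtain ⟨T', rfl⟩ : ∃ T', T = Q + T' := ⟨T - Q, by omega⟩
      rw [sum_range_add, h0, zero_add]
      simp only [pow_add, hzQ, one_mul]
      exact ih T' (by omega)

end Crest.Agent.R210
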