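import Mathlib
import Crest.Agent.R210.Edit
import Crest.Agent.R210.Fourier
import Crest.Agent.R210.Far

/-! The recursive gadget: a finite abelian group with an encoding by words. -/

set_option autoImplicit false

namespace Crest.Agent.R210

open Finset Crest.GeometryTopology.EditDistance

/-- A finite abelian group `X` with a distinguished element `h` of order dividing `n` and an
encoding by words such that translates by multiples of `h` are far and characters that see `h`
are detected by cheap translations. -/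
structure Gadget (n l Sb : ℕ) (γ B : ℝ) where
  X : Type
  [grp : AddCommGroup X]
  [fin : Fintype X]
  h : X
  enc : X → List ℕ
  ord : n • h = 0
  len : ∀ x, (enc x).length = l
  sym : ∀ x, ∀ s ∈ enc x, s < Sb
  far : ∀ x (u : ℤ), ¬ (n : ℤ) ∣ u → Far (enc x) (enc (x + u • h)) γ
  good : ∀ (J : Type) [Fintype J] (χ : J → AddChar X ℂ) (c : J → ℝ) (K : ℝ), (∀ j, 0 ≤ c j) →
    0 ≤ K → (∀ (a : X) (C : ℕ), (∀ x, editDist (enc x) (enc (x + a)) ≤ C) →
      ∑ j, c j * (1 - (χ j a).re) ≤ K * C) →
    ∑ j, (if χ j h = 1 then 0 else c j) ≤ K * B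

attribute [instance] Gadget.grp Gadget.fin

theorem gadget_base (n Sb : ℕ) (hn : 0 < n) (hSb : n ≤ Sb) : Nonempty (Gadget n 1 Sb 1 1) := by
  have : NeZero n := ⟨hn.ne'⟩
  refine ⟨{ X := ZMod n, h := 1, enc := fun x => [x.val], ord := by simp, len := fun _ => rfl,
            sym := fun x s hs => ?_, far := fun x u hu w h1 h2 => ?_,
            good := fun J _ χ c K hc hK H => ?_ }⟩
  · rw [List.mem_singleton.1 hs]; exact (ZMod.val_lt x).trans_le hSb
  · have : w = [] := by
      rcases List.sublist_singleton.1 h1 with h | h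
      · exact h
      · rcases List.sublist_singleton.1 h2 with h' | h'
        · exact h'
        · exfalso
          rw [h, List.cons.injEq] at h'
          have := ZMod.val_injective n h'.1
          apply hu
          rw [← ZMod.intCast_zmod_eq_zero_iff_dvd]
          simpa using this
    simp [this]
  · have h1 : ∀ a : ZMod n, ∑ j, c j * (1 - (χ j a).re) ≤ K * (1 : ℕ) := fun a =>
      H a 1 fun x => by
        have := ed_map (fun b : Bool => if b then x.val else (x + a).val) [true] [false]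
        have h2 : editDist [true] [false] ≤ 1 := by
          refine ed_adj ?_
          rw [editGraph, SimpleGraph.fromRel_adj]
          exact ⟨by simp, Or.inl (Or.inr ⟨[], [], true, false, by simp, rfl, rfl⟩)⟩
        simpa using this.trans h2
    have h2 := sum_le_sum (s := univ) fun a _ => h1 a
    rw [sum_comm] at h2
    simp only [← mul_sum, sum_const, card_univ, ZMod.card, nsmul_eq_mul, Nat.cast_one,
      mul_one] at h2 ⊢
    have hn' : (0 : ℝ) < n := by exact_mod_cast hn
    refine le_of_mul_le_mul_left (le_trans ?_ h2) hn'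
    rw [mul_sum]
    refine sum_le_sum fun j _ => ?_
    split_ifs with hj
    · rw [mul_zero]
      exact mul_nonneg (hc j) (sum_nonneg fun a _ => by
        linarith [(abs_le.1 (re_le_one (χ j) a)).2])
    · have h0 : ∑ x, χ j x = 0 := AddChar.sum_eq_zero_iff_ne_zero.2 (by
        rintro e; rw [e] at hj; exact hj rfl)
      rw [sum_sub_distrib, ← Complex.re_sum, h0]
      simp [mul_comm]

theorem addChar_pi {m : ℕ} {X : Fin m → Type} [∀ i, AddCommGroup (X i)]
    (ψ : AddChar (∀ i, X i) ℂ) (g : ∀ i, X i) : ψ g = ∏ i, ψ (Pi.single i (g i)) := by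
  conv_lhs => rw [← univ_sum_single g]
  induction (univ : Finset (Fin m)) using Finset.induction_on with
  | empty => simp
  | insert a s ha ih => rw [sum_insert ha, prod_insert ha, AddChar.map_add_eq_mul, ih]

theorem count_far (n m μ N ρ : ℕ) (r : Fin m → ℕ) (hm : m = 2 * μ) (hρ : 1 ≤ ρ)
    (hr : ∀ i, ρ ≤ r i) (hcop : Pairwise fun i j => Nat.Coprime (r i) (r j))
    (hn : ∀ i, Nat.Coprime n (r i)) (hN : N ≤ ρ ^ μ) (u : ℤ) (hu : ¬ (n : ℤ) ∣ u)
    (t t' : ℕ) (ht : t < N) (ht' : t' < N) :
    μ ≤ (univ.filter fun i => ¬ ((n * r i : ℕ) : ℤ) ∣ u * (∏ j, r j : ℕ) + t' - t).card := by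
  classical
  have h1 := card_filter_add_card_filter_not (s := (univ : Finset (Fin m)))
    (fun i => ((n * r i : ℕ) : ℤ) ∣ u * (∏ j, r j : ℕ) + t' - t)
  rw [card_univ, Fintype.card_fin] at h1
  set I := univ.filter fun i => ((n * r i : ℕ) : ℤ) ∣ u * (∏ j, r j : ℕ) + t' - t with hI
  suffices I.card ≤ μ by omega
  by_cases htt : t = t'
  · have : I = ∅ := by
      rw [hI, filter_eq_empty_iff]
      intro i _ h
      apply hu
      rw [htt, add_sub_cancel_right] at h
      have h2 : (n : ℤ) ∣ u * (∏ j, r j : ℕ) := Dvd.dvd.trans (by push_cast; exact dvd_mul_right _ _) h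
      have h3 : Nat.Coprime n (∏ j, r j) := Nat.Coprime.prod_right fun j _ => hn j
      exact (Nat.isCoprime_iff_coprime.2 h3).dvd_of_dvd_mul_right h2
    simp [this]
  · have h2 : ∀ i ∈ I, r i ∣ ((t' : ℤ) - t).natAbs := by
      intro i hi
      rw [hI, mem_filter] at hi
      have h3 : (r i : ℤ) ∣ u * (∏ j, r j : ℕ) + t' - t :=
        Dvd.dvd.trans (by push_cast; exact dvd_mul_left _ _) hi.2
      have h4 : (r i : ℤ) ∣ u * (∏ j, r j : ℕ) :=
        Dvd.dvd.mul_left (Int.natCast_dvd_natCast.2 (dvd_prod_of_mem _ (mem_univ i))) _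
      rw [add_sub_assoc] at h3
      exact Int.natCast_dvd.1 ((dvd_add_right h4).1 h3)
    have h3 : ∏ i ∈ I, r i ∣ ((t' : ℤ) - t).natAbs :=
      Finset.prod_dvd_of_isRelPrime
        (fun i _ j _ hij => Nat.coprime_iff_isRelPrime.1 (hcop hij)) h2
    have h4 : ∏ i ∈ I, r i ≤ ((t' : ℤ) - t).natAbs := Nat.le_of_dvd (by omega) h3
    have h5 : ρ ^ I.card ≤ ∏ i ∈ I, r i := pow_card_le_prod _ _ _ fun i _ => hr i
    by_contra hc
    have h6 : ρ ^ μ ≤ ρ ^ I.card := Nat.pow_le_pow_right hρ (by omega)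
    omega

theorem char_detect {m : ℕ} {X : Fin m → Type} [∀ i, AddCommGroup (X i)] [∀ i, Fintype (X i)]
    (n w T ρ : ℕ) (hn : 0 < n) (hw : 0 < w) (r : Fin m → ℕ) (hr0 : ∀ i, 0 < r i)
    (hr : ∀ i, r i ≤ ρ) (hρ : 1 ≤ ρ) (hT : 2 * (n * ρ ^ w) ≤ T)
    (g : ∀ i, X i) (hg : ∀ i, (n * r i) • g i = 0)
    (ψ : AddChar (∀ i, X i) ℂ) (hψ : ψ g ≠ 1) :
    (1 : ℝ) ≤ 2 / T * ∑ t ∈ range T, (1 - (ψ (t • g)).re) +
      1 / w * ∑ i, (if ψ (Pi.single i (g i)) = 1 then 0 else 1) := by
  classical
  set I := univ.filter fun i => ¬ ψ (Pi.single i (g i)) = 1 with hI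
  have e : ∑ i, (if ψ (Pi.single i (g i)) = 1 then (0 : ℝ) else 1) = I.card := by
    rw [hI, sum_ite]; simp
  rw [e]
  have hw' : (0 : ℝ) < w := by exact_mod_cast hw
  have hT0 : 0 < T := lt_of_lt_of_le (by positivity) hT
  have hT' : (0 : ℝ) < T := by exact_mod_cast hT0
  have hnn : 0 ≤ ∑ t ∈ range T, (1 - (ψ (t • g)).re) :=
    sum_nonneg fun t _ => by linarith [(abs_le.1 (re_le_one ψ (t • g))).2]
  by_cases hc : w ≤ I.card
  · have : (1 : ℝ) ≤ 1 / w * I.card := by
      rw [one_div, inv_mul_eq_div, one_le_div hw']; exact_mod_cast hc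
    have : 0 ≤ 2 / (T : ℝ) * ∑ t ∈ range T, (1 - (ψ (t • g)).re) := by positivity
    linarith
  · set Q := n * ∏ i ∈ I, r i with hQ
    have hQ0 : 0 < Q := Nat.mul_pos hn (prod_pos fun i _ => hr0 i)
    have hQT : 2 * Q ≤ T := by
      refine le_trans ?_ hT
      have h1 : ∏ i ∈ I, r i ≤ ρ ^ I.card := prod_le_pow_card _ _ _ fun i _ => hr i
      have h2 : ρ ^ I.card ≤ ρ ^ w := Nat.pow_le_pow_right hρ (by omega)
      rw [hQ]
      gcongr
      exact h1.trans h2
    have hzQ : ψ g ^ Q = 1 := by
      rw [addChar_pi, ← prod_pow]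
      refine prod_eq_one fun i _ => ?_
      by_cases hi : i ∈ I
      · obtain ⟨d, hd⟩ : n * r i ∣ Q := Nat.mul_dvd_mul_left _ (dvd_prod_of_mem _ hi)
        rw [hd, pow_mul, ← AddChar.map_nsmul_eq_pow, ← Pi.single_smul, hg]
        simp
      · have : ψ (Pi.single i (g i)) = 1 := by simpa [hI] using hi
        rw [this, one_pow]
    have h1 := root_sum (ψ g) (AddChar.norm_apply _ _) hψ Q hQ0 hzQ T
    have h2 : ∑ t ∈ range T, (1 - (ψ (t • g)).re) = T - (∑ t ∈ range T, ψ g ^ t).re := by
      simp [sum_sub_distrib, AddChar.map_nsmul_eq_pow]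
    have h3 := (Complex.re_le_norm _).trans h1
    have h4 : 2 * (Q : ℝ) ≤ T := by exact_mod_cast hQT
    have h5 : (1 : ℝ) ≤ 2 / T * ∑ t ∈ range T, (1 - (ψ (t • g)).re) := by
      rw [h2, div_mul_eq_mul_div, one_le_div hT']
      linarith
    have : (0 : ℝ) ≤ 1 / w * I.card := by positivity
    linarith

theorem gadget_step (n m μ l Sb N T w ρ₀ ρ₁ : ℕ) (γ B : ℝ) (r : Fin m → ℕ) (hm : m = 2 * μ)
    (hn0 : 0 < n) (hw : 0 < w) (hSb : 0 < Sb) (hρ₀ : 1 ≤ ρ₀) (hρ₁ : 1 ≤ ρ₁)
    (hr₀ : ∀ i, ρ₀ ≤ r i) (hr₁ : ∀ i, r i ≤ ρ₁)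
    (hcop : Pairwise fun i j => Nat.Coprime (r i) (r j)) (hn : ∀ i, Nat.Coprime n (r i))
    (hN : N ≤ ρ₀ ^ μ) (hT : 2 * (n * ρ₁ ^ w) ≤ T) (hγ0 : 0 ≤ γ) (hγ : γ ≤ l)
    (G : ∀ i, Gadget (n * r i) l Sb γ B) :
    Nonempty (Gadget n (N * (2 * (m * l))) (Sb * (m + 1)) (N * μ * γ / 2)
      (8 * T * m * l + N * m * B / w)) := by
  classical
  let g : ∀ i, (G i).X := fun i => (G i).h
  let S : (∀ i, (G i).X) → ℕ → List ℕ := fun x t => sup m fun i => (G i).enc (x i + t • (G i).h)
  let M : List ℕ := List.replicate (m * l) 0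
  have hS : ∀ x t, (S x t).length = m * l := fun x t => sup_length m l _ fun i => (G i).len _
  have hSM : ∀ x t, (S x t ++ M).length = 2 * (m * l) := fun x t => by
    simp only [List.length_append, hS, M, List.length_replicate]; ring
  refine ⟨{ X := ∀ i, (G i).X, h := (∏ j, r j) • g,
            enc := fun x => (List.range N).flatMap fun t => S x t ++ M,
            ord := ?_, len := fun x => ?_, sym := fun x s hs => ?_,
            far := fun x u hu v h1 h2 => ?_, good := fun J _ χ c K hc hK H => ?_ }⟩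
  · ext i
    obtain ⟨d, hd⟩ : r i ∣ ∏ j, r j := dvd_prod_of_mem _ (mem_univ i)
    simp only [Pi.smul_apply, Pi.zero_apply, g]
    rw [smul_smul, hd, ← mul_assoc, mul_comm _ d, ← smul_smul, (G i).ord, smul_zero]
  · rw [length_flatMap_const _ _ _ (hSM x), List.length_range]
  · simp only [List.mem_flatMap, List.mem_append] at hs
    obtain ⟨t, -, hs | hs⟩ := hs
    · obtain ⟨i, s', h1, rfl⟩ := mem_sup hs
      have h2 := (G i).sym _ _ h1
      have h3 := i.2
      unfold tag
      have : (s' + 1) * (m + 1) ≤ Sb * (m + 1) := Nat.mul_le_mul_right _ h2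
      nlinarith
    · rw [List.eq_of_mem_replicate hs]; positivity
  · have key := far_concat (m * l) (μ * γ) ?_ ((List.range N).map (S x))
      ((List.range N).map (S (x + u • (∏ j, r j) • g))) ?_ ?_ ?_
      ((List.range N).flatMap fun t => S (x + u • (∏ j, r j) • g) t ++ M) v
      (by rw [List.flatMap_map]) (by rw [List.flatMap_map]; exact h1) h2
    · rw [length_flatMap_const _ _ _ (hSM _)] at key ⊢
      simp only [List.length_map, List.length_range] at key ⊢
      push_cast at key ⊢
      linarith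
    · rw [hm]; push_cast
      have : (μ : ℝ) * γ ≤ μ * l := by gcongr
      have : (0 : ℝ) ≤ μ * l := by positivity
      linarith
    · intro X hX
      obtain ⟨t, -, rfl⟩ := List.mem_map.1 hX
      exact zero_not_mem_sup _ _
    · intro X hX
      obtain ⟨t, -, rfl⟩ := List.mem_map.1 hX
      exact hS _ _
    · intro X hX Y hY v h1 h2
      obtain ⟨t, ht, rfl⟩ := List.mem_map.1 hX
      obtain ⟨t', ht', rfl⟩ := List.mem_map.1 hY
      have hc := count_far n m μ N ρ₀ r hm hρ₀ hr₀ hcop hn hN u hu t t' (List.mem_range.1 ht)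
        (List.mem_range.1 ht')
      have := far_sup m l γ _ _ (fun i => (G i).len _)
        (univ.filter fun i => ¬ ((n * r i : ℕ) : ℤ) ∣ u * (∏ j, r j : ℕ) + t' - t) ?_ v h1 h2
      · have hc' : (μ : ℝ) * γ ≤ (univ.filter fun i =>
          ¬ ((n * r i : ℕ) : ℤ) ∣ u * (∏ j, r j : ℕ) + t' - t).card * γ := by gcongr
        push_cast at this hc' ⊢
        linarith
      · intro i hi
        have h3 := (G i).far (x i + t • (G i).h) _ (mem_filter.1 hi).2
        have e : x i + t • (G i).h + (u * (∏ j, r j : ℕ) + t' - t : ℤ) • (G i).h =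
            (x + u • (∏ j, r j) • g) i + t' • (G i).h := by
          simp only [Pi.add_apply, Pi.smul_apply, g, sub_smul, add_smul, mul_smul, natCast_zsmul]
          abel
        rwa [e] at h3
  · have hr0 : ∀ i, 0 < r i := fun i => lt_of_lt_of_le hρ₀ (hr₀ i)
    have hw' : (0 : ℝ) < w := by exact_mod_cast hw
    have hT0 : 0 < T := lt_of_lt_of_le (by positivity) hT
    have hT' : (0 : ℝ) < T := by exact_mod_cast hT0
    -- shifts
    have h1 : ∀ t ∈ range T, ∑ j, c j * (1 - (χ j (t • g)).re) ≤ K * (4 * T * m * l) := by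
      intro t ht
      refine (H (t • g) (2 * t * (2 * (m * l))) fun x => ?_).trans ?_
      · have := ed_shift (fun t => S x t ++ M) _ (hSM x) N t
        convert this using 5 with t'
        simp only [S, Pi.add_apply, Pi.smul_apply, g, add_smul]
        congr 1
        ext1 i
        congr 1
        abel
      · have : (t : ℝ) ≤ T := by exact_mod_cast (mem_range.1 ht).le
        push_cast
        have : K * (2 * t * (2 * (m * l))) ≤ K * (2 * T * (2 * (m * l))) := by gcongr
        linarith
    -- children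
    have h2 : ∀ i, ∑ j, (if χ j (Pi.single i (g i)) = 1 then 0 else c j) ≤ K * N * B := by
      intro i
      refine (G i).good J
        (fun j => (χ j).compAddMonoidHom (AddMonoidHom.single (fun i => (G i).X) i)) c (K * N) hc
        (by positivity) fun a C hC => ?_
      refine (H (Pi.single i a) (N * C) fun x => ?_).trans (by push_cast; rw [mul_assoc])
      refine (ed_flatMap _ _ _).trans ?_
      refine (List.sum_le_card_nsmul _ C ?_).trans (by simp)
      intro y hy
      obtain ⟨t, -, rfl⟩ := List.mem_map.1 hy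
      refine (ed_append _ _ _ _).trans ?_
      rw [ed_self, add_zero]
      refine (ed_flatMap _ _ _).trans ?_
      rw [← Fin.sum_univ_def, sum_eq_single i]
      · refine (ed_map _ _ _).trans ?_
        have := hC (x i + t • (G i).h)
        simp only [Pi.add_apply, Pi.single_eq_same]
        rwa [add_right_comm] at this
      · intro i' _ hi'
        simp only [Pi.add_apply, Pi.single_eq_of_ne hi', add_zero, ed_self]
      · intro h; exact absurd (mem_univ i) h
    have h3 : ∀ j, (if χ j ((∏ j, r j) • g) = 1 then 0 else c j) ≤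
        2 / T * ∑ t ∈ range T, c j * (1 - (χ j (t • g)).re) +
          1 / w * ∑ i, (if χ j (Pi.single i (g i)) = 1 then 0 else c j) := by
      intro j
      have e : ∑ i, (if χ j (Pi.single i (g i)) = 1 then 0 else c j) =
          c j * ∑ i, (if χ j (Pi.single i (g i)) = 1 then 0 else 1) := by
        rw [mul_sum]; exact sum_congr rfl fun i _ => by split_ifs <;> simp
      rw [e, ← mul_sum]
      have hnn : 0 ≤ ∑ t ∈ range T, (1 - (χ j (t • g)).re) :=
        sum_nonneg fun t _ => by linarith [(abs_le.1 (re_le_one (χ j) (t • g))).2]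
      have hnn' : (0 : ℝ) ≤ ∑ i, (if χ j (Pi.single i (g i)) = 1 then 0 else 1) :=
        sum_nonneg fun i _ => by split_ifs <;> norm_num
      have hcj := hc j
      split_ifs with hj
      · positivity
      · have := char_detect n w T ρ₁ hn0 hw r hr0 hr₁ hρ₁ hT g (fun i => (G i).ord) (χ j) (by
          intro e; apply hj; rw [AddChar.map_nsmul_eq_pow, e, one_pow])
        have := mul_le_mul_of_nonneg_left this hcj
        linarith
    refine (sum_le_sum fun j _ => h3 j).trans ?_
    rw [sum_add_distrib, ← mul_sum, ← mul_sum, sum_comm, sum_comm (s := univ) (t := univ)]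
    have h4 := sum_le_sum h1
    have h5 := sum_le_sum (s := univ) fun i _ => h2 i
    simp only [sum_const, card_range, card_univ, Fintype.card_fin, nsmul_eq_mul] at h4 h5
    have h6 := mul_le_mul_of_nonneg_left h4 (show (0 : ℝ) ≤ 2 / T by positivity)
    have h7 := mul_le_mul_of_nonneg_left h5 (show (0 : ℝ) ≤ 1 / w by positivity)
    refine (add_le_add h6 h7).trans (le_of_eq ?_)
    field_simp
    ring

end Crest.Agent.R210
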