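import Mathlib
import Crest.Agent.R210.Gadget

/-! Iterating the gadget, and the distortion bound it gives. -/

set_option autoImplicit false

namespace Crest.Agent.R210

open Finset Crest.GeometryTopology.EditDistance

/-- Weakening the parameters of a gadget. -/
def Gadget.weaken {n l Sb l' Sb' : ℕ} {γ B γ' B' : ℝ} (G : Gadget n l Sb γ B) (hl : l = l')
    (hS : Sb ≤ Sb') (hγ : γ' ≤ γ) (hB : B ≤ B') : Gadget n l' Sb' γ' B' where
  X := G.X
  h := G.h
  enc := G.enc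
  ord := G.ord
  len := fun x => (G.len x).trans hl
  sym := fun x s hs => (G.sym x s hs).trans_le hS
  far := fun x u hu w h1 h2 => le_trans (by linarith) (G.far x u hu w h1 h2)
  good := fun J _ χ c K hc hK H =>
    (G.good J χ c K hc hK H).trans (mul_le_mul_of_nonneg_left hB hK)

theorem gadget_iter (k m μ N T w ρ₀ ρ₁ nmax : ℕ) (r : ℕ → Fin m → ℕ) (hm : m = 2 * μ)
    (hw : 0 < w) (hρ₀ : 1 ≤ ρ₀) (hρ₁ : 1 ≤ ρ₁)
    (hr₀ : ∀ j < k, ∀ i, ρ₀ ≤ r j i) (hr₁ : ∀ j < k, ∀ i, r j i ≤ ρ₁)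
    (hcop : ∀ j < k, ∀ j' < k, ∀ i i', (j ≠ j' ∨ i ≠ i') → Nat.Coprime (r j i) (r j' i'))
    (hN : N ≤ ρ₀ ^ μ) (hT : 2 * (nmax * ρ₁ ^ w) ≤ T) (hTN : 8 * T * (2 * w) ^ k ≤ N)
    (j : ℕ) (hj : j ≤ k) (n : ℕ) (hn0 : 0 < n) (hn : ∀ j' < j, ∀ i, Nat.Coprime n (r j' i))
    (hnmax : n * ρ₁ ^ j ≤ nmax) :
    Nonempty (Gadget n ((N * (2 * m)) ^ j) (nmax * (m + 1) ^ j) ((N * μ / 2) ^ j)
      ((j + 1) * (N * m / w) ^ j)) := by
  induction j generalizing n with
  | zero =>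
    obtain ⟨G⟩ := gadget_base n nmax hn0 (by simpa using hnmax)
    exact ⟨G.weaken (by simp) (by simp) (by simp) (by simp)⟩
  | succ j ih =>
    have hpow : 1 ≤ ρ₁ ^ (j + 1) := Nat.one_le_pow _ _ hρ₁
    have hnle : n ≤ nmax := le_trans (Nat.le_mul_of_pos_right _ hpow) hnmax
    have G : ∀ i, Gadget (n * r j i) ((N * (2 * m)) ^ j) (nmax * (m + 1) ^ j) ((N * μ / 2) ^ j)
        ((j + 1) * (N * m / w) ^ j) := fun i => Classical.choice <| ih (by omega) (n * r j i)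
      (Nat.mul_pos hn0 (lt_of_lt_of_le hρ₀ (hr₀ j (by omega) i)))
      (fun j' hj' i' => Nat.Coprime.mul_left (hn j' (by omega) i')
        (hcop j (by omega) j' (by omega) i i' (Or.inl (by omega))))
      (by
        refine le_trans ?_ hnmax
        have := hr₁ j (by omega) i
        rw [pow_succ', ← mul_assoc]
        gcongr)
    obtain ⟨G'⟩ := gadget_step n m μ _ _ N T w ρ₀ ρ₁ _ _ (r j) hm hn0 hw
      (Nat.mul_pos (lt_of_lt_of_le hn0 hnle) (by positivity)) hρ₀ hρ₁ (hr₀ j (by omega))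
      (hr₁ j (by omega)) (fun i i' h => hcop j (by omega) j (by omega) i i' (Or.inr h))
      (hn j (by omega)) hN (le_trans (by gcongr) hT) (by positivity) (by
        push_cast
        gcongr
        rw [hm]; push_cast
        have : (0 : ℝ) ≤ N * μ := by positivity
        linarith) G
    refine ⟨G'.weaken (by ring) (le_of_eq (by ring)) (le_of_eq (by ring)) ?_⟩
    have hw' : (0 : ℝ) < w := by exact_mod_cast hw
    have h1 : 8 * T * (2 ^ j * w ^ (j + 1)) ≤ N := by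
      refine le_trans (Nat.mul_le_mul_left _ ?_) hTN
      calc 2 ^ j * w ^ (j + 1) ≤ 2 ^ (j + 1) * w ^ (j + 1) := by gcongr <;> omega
        _ = (2 * w) ^ (j + 1) := by rw [mul_pow]
        _ ≤ (2 * w) ^ k := Nat.pow_le_pow_right (by omega) hj
    have h2 : (8 * T * (2 ^ j * w ^ (j + 1)) : ℝ) ≤ N := by exact_mod_cast h1
    have h3 : (8 * T * m * ((N * (2 * m)) ^ j : ℕ) : ℝ) ≤ (N * m / w) ^ (j + 1) := by
      rw [div_pow, le_div_iff₀ (by positivity)]
      push_cast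
      calc (8 * T * m * (N * (2 * m)) ^ j * w ^ (j + 1) : ℝ)
          = (8 * T * (2 ^ j * w ^ (j + 1))) * (m * (N * m) ^ j) := by ring
        _ ≤ N * (m * (N * m) ^ j) := by gcongr
        _ = (N * m) ^ (j + 1) := by ring
    have h4 : (N * m * ((j + 1) * (N * m / w) ^ j) / w : ℝ) = (j + 1) * (N * m / w) ^ (j + 1) := by
      ring
    rw [h4]
    push_cast at h3 ⊢
    linarith

theorem gadget_bound {l Sb : ℕ} {γ B : ℝ} (G : Gadget 2 l Sb γ B) (hγ : 0 < γ) (β : ℕ)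
    (hβ : Sb ≤ 2 ^ β) (f : List Bool → lp (fun _ : ℕ => ℝ) 1) (s D : ℝ) (hs : 0 < s)
    (H : ∀ x y : List Bool, x.length = l * (5 * β + 4) → y.length = l * (5 * β + 4) → x ≠ y →
      s * (editDist x y : ℝ) ≤ ‖f x - f y‖ ∧ ‖f x - f y‖ ≤ D * s * (editDist x y : ℝ)) :
    0 ≤ D ∧ γ ≤ 12 * (5 * β + 4) * B * D := by
  let E : G.X → List Bool := fun x => (G.enc x).flatMap (code β)
  have hE : ∀ x, (E x).length = l * (5 * β + 4) := fun x => by
    rw [length_flatMap_const _ _ _ (code_length β), G.len]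
  have hfar : ∀ x, γ ≤ 3 * (editDist (E x) (E (x + G.h)) : ℝ) := by
    intro x
    obtain ⟨w, h1, h2, h3⟩ := sub_of_code β (G.enc x) (G.enc (x + G.h))
      (fun a ha => (G.sym _ _ ha).trans_le hβ) (fun a ha => (G.sym _ _ ha).trans_le hβ)
    have h4 := G.far x 1 (by norm_num) w h1 (by simpa using h2)
    have h5 : ((G.enc x).length : ℝ) ≤ w.length + 3 * (editDist (E x) (E (x + G.h)) : ℝ) := by
      exact_mod_cast h3
    linarith
  have hne : ∀ x, E x ≠ E (x + G.h) := by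
    intro x e
    have := hfar x
    rw [← e, ed_self] at this
    simp at this
    linarith
  have hD : 0 ≤ D := by
    have h1 := H _ _ (hE 0) (hE _) (hne 0)
    have h2 := hfar 0
    have h3 : 0 < s * (editDist (E 0) (E (0 + G.h)) : ℝ) := mul_pos hs (by linarith)
    by_contra hc
    push Not at hc
    nlinarith [h1.1, h1.2]
  refine ⟨hD, ?_⟩
  obtain ⟨c, hc, hrep⟩ := fourier_rep (fun x => f (E x))
  have hN : (0 : ℝ) < Fintype.card G.X := by exact_mod_cast Fintype.card_pos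
  have h1 := G.good _ id c (Fintype.card G.X * (D * s * (2 * (5 * β + 4)))) hc (by positivity)
    (fun a C hC => by
      simp only [id]
      rw [← hrep]
      have : ∀ x, ‖f (E (x + a)) - f (E x)‖ ≤ D * s * (2 * (5 * β + 4)) * C := by
        intro x
        by_cases e : E x = E (x + a)
        · rw [e, sub_self, norm_zero]; positivity
        · rw [norm_sub_rev]
          refine (H _ _ (hE _) (hE _) e).2.trans ?_
          have h1 := (ed_code (code β) _ (code_length β) (G.enc x) (G.enc (x + a))).trans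
            (Nat.mul_le_mul_left _ (hC x))
          have h2 : (editDist (E x) (E (x + a)) : ℝ) ≤ 2 * (5 * β + 4) * C := by exact_mod_cast h1
          rw [mul_assoc (D * s)]
          gcongr
      have := sum_le_sum (s := univ) fun x _ => this x
      simp only [sum_const, card_univ, nsmul_eq_mul] at this
      linarith)
  have h2 : Fintype.card G.X * (s * (γ / 3)) ≤ ∑ x, ‖f (E (x + G.h)) - f (E x)‖ := by
    have : ∀ x, s * (γ / 3) ≤ ‖f (E (x + G.h)) - f (E x)‖ := by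
      intro x
      rw [norm_sub_rev]
      refine le_trans ?_ (H _ _ (hE _) (hE _) (hne x)).1
      have := hfar x
      gcongr
      linarith
    have := sum_le_sum (s := univ) fun x _ => this x
    simpa using this
  have h3 : ∑ ψ, c ψ * (1 - (ψ G.h).re) ≤ 2 * ∑ ψ, (if ψ G.h = 1 then 0 else c ψ) := by
    rw [mul_sum]
    refine sum_le_sum fun ψ _ => ?_
    split_ifs with h
    · simp [h]
    · nlinarith [hc ψ, (abs_le.1 (re_le_one ψ G.h)).1]
  rw [hrep] at h2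
  simp only [id] at h1
  have h4 : Fintype.card G.X * s * γ ≤ Fintype.card G.X * s * (12 * (5 * β + 4) * B * D) := by
    linarith
  exact le_of_mul_le_mul_left h4 (by positivity)

theorem many_primes (k : ℕ) (hk : 4 ≤ k) :
    2 * (16 * k ^ 2) ≤ Nat.primeCounting ((16 * k ^ 2) ^ 2) := by
  have h := Chebyshev.pi_ge ((16 * k ^ 2) ^ 2)
  have hk' : (4 : ℝ) ≤ k := by exact_mod_cast hk
  have e : (((16 * k ^ 2) ^ 2 : ℕ) : ℝ) = (4 * k) ^ 4 := by push_cast; ring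
  rw [e] at h
  have h1 : Real.log ((4 * k : ℝ) ^ 4) ≤ 16 * k := by
    rw [Real.log_pow]
    have := Real.log_le_sub_one_of_pos (x := 4 * k) (by positivity)
    push_cast; linarith
  have h1' : 0 < Real.log ((4 * k : ℝ) ^ 4) := Real.log_pos (one_lt_pow₀ (by linarith) (by norm_num))
  have h2 : Real.log ((4 * k : ℝ) ^ 4 + 1) ≤ 1 + 16 * k := by
    have h3 : (1 : ℝ) ≤ (4 * k) ^ 4 := one_le_pow₀ (by linarith)
    have : Real.log ((4 * k : ℝ) ^ 4 + 1) ≤ Real.log (2 * (4 * k) ^ 4) :=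
      Real.log_le_log (by positivity) (by linarith)
    rw [Real.log_mul (by norm_num) (by positivity)] at this
    have := Real.log_two_lt_d9
    linarith
  have h4 := Real.log_two_gt_d9
  have h5 : ((2 * (16 * k ^ 2) : ℕ) : ℝ) ≤
      ((4 * k) ^ 4 * Real.log 2 - Real.log ((4 * k) ^ 4 + 1)) / Real.log ((4 * k) ^ 4) := by
    rw [le_div_iff₀ h1']
    push_cast
    have a1 : 2 * (16 * (k : ℝ) ^ 2) * Real.log ((4 * k : ℝ) ^ 4) ≤ 2 * (16 * (k : ℝ) ^ 2) * (16 * k) := by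
      gcongr
    have a2 : (4 * k : ℝ) ^ 4 * 0.69 ≤ (4 * k) ^ 4 * Real.log 2 := by gcongr; linarith
    have a3 : (k : ℝ) ^ 3 * 4 ≤ k ^ 4 := by
      calc (k : ℝ) ^ 3 * 4 ≤ (k : ℝ) ^ 3 * k := by gcongr
        _ = (k : ℝ) ^ 4 := by ring
    have a4 : (k : ℝ) * 16 ≤ k ^ 3 := by
      have : (16 : ℝ) ≤ k ^ 2 := by nlinarith
      calc (k : ℝ) * 16 ≤ k * (k : ℝ) ^ 2 := by gcongr
        _ = (k : ℝ) ^ 3 := by ring
    nlinarith
  exact_mod_cast h5.trans h

theorem two_pow_ge (k : ℕ) (hk : 64 ≤ k) : 1000 * k ^ 3 ≤ 2 ^ k := by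
  induction k, hk using Nat.le_induction with
  | base => norm_num
  | succ k hk ih =>
    have : (k + 1) ^ 3 ≤ 2 * k ^ 3 := by
      have h1 : 64 * k ^ 2 ≤ k ^ 3 := by
        calc 64 * k ^ 2 ≤ k * k ^ 2 := by gcongr
          _ = k ^ 3 := by ring
      have h2 : 64 * k ≤ k ^ 2 := by nlinarith
      nlinarith
    rw [pow_succ 2]
    omega

theorem main_bound (k : ℕ) (hk : 64 ≤ k) : ∃ n : ℕ, n ≤ k ^ (30 * k ^ 2) ∧
    ∀ (f : List Bool → lp (fun _ : ℕ => ℝ) 1) (s D : ℝ), 0 < s →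
      (∀ x y : List Bool, x.length = n → y.length = n → x ≠ y →
        s * (editDist x y : ℝ) ≤ ‖f x - f y‖ ∧ ‖f x - f y‖ ≤ D * s * (editDist x y : ℝ)) →
      ((k : ℝ) / 8) ^ k ≤ D := by
  obtain ⟨ρ, hρ⟩ : ∃ ρ, ρ = 16 * k ^ 2 := ⟨_, rfl⟩
  have hρ1 : 32 * k ≤ ρ := by rw [hρ]; nlinarith
  have hρ0 : 1 ≤ ρ := by omega
  have hπ := many_primes k (by omega)
  rw [← hρ] at hπ
  let r : ℕ → Fin (16 * k) → ℕ := fun j i => Nat.nth Nat.Prime (ρ + (j * (16 * k) + i))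
  have hr0 : ∀ j i, ρ + 2 ≤ r j i := fun j i =>
    le_trans (by omega) (Nat.add_two_le_nth_prime _)
  have hrp : ∀ j i, (r j i).Prime := fun j i => Nat.prime_nth_prime _
  obtain ⟨N, hN⟩ : ∃ N, N = ρ ^ (8 * k) := ⟨_, rfl⟩
  have hN0 : 0 < N := by rw [hN]; positivity
  obtain ⟨G⟩ := gadget_iter k (16 * k) (8 * k) N (2 * (2 * (ρ ^ 2) ^ k * (ρ ^ 2) ^ k)) k ρ (ρ ^ 2)
    (2 * (ρ ^ 2) ^ k) r (by ring) (by omega) hρ0 (Nat.one_le_pow _ _ hρ0)
    (fun j _ i => le_trans (by omega) (hr0 j i))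
    (fun j hj i => by
      refine Nat.lt_succ_iff.1 (Nat.nth_lt_of_lt_count ?_)
      refine lt_of_lt_of_le ?_ hπ
      have h1 := i.2
      have h2 : (j + 1) * (16 * k) ≤ k * (16 * k) := Nat.mul_le_mul_right _ hj
      nlinarith)
    (fun j _ j' _ i i' h => by
      refine (Nat.coprime_primes (hrp j i) (hrp j' i')).2 fun e => ?_
      have h1 := Nat.add_left_cancel (Nat.nth_injective Nat.infinite_setOfPred_prime e)
      have h2 : j = j' := by
        have := congrArg (· / (16 * k)) h1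
        simp only [add_comm _ (i : ℕ), add_comm _ (i' : ℕ)] at this
        rwa [Nat.add_mul_div_right _ _ (by omega), Nat.add_mul_div_right _ _ (by omega),
          Nat.div_eq_of_lt i.2, Nat.div_eq_of_lt i'.2, zero_add, zero_add] at this
      subst h2
      rcases h with h | h
      · exact h rfl
      · exact h (Fin.ext (Nat.add_left_cancel h1)))
    hN.le le_rfl
    (by
      rw [hN]
      calc 8 * (2 * (2 * (ρ ^ 2) ^ k * (ρ ^ 2) ^ k)) * (2 * k) ^ k
          = 32 * ρ ^ (4 * k) * (2 * k) ^ k := by ring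
        _ ≤ ρ * ρ ^ (4 * k) * ρ ^ k := by gcongr <;> omega
        _ = ρ ^ (5 * k + 1) := by ring
        _ ≤ ρ ^ (8 * k) := Nat.pow_le_pow_right hρ0 (by omega))
    k le_rfl 2 two_pos
    (fun j _ i => (Nat.coprime_primes Nat.prime_two (hrp j i)).2 (by have := hr0 j i; omega))
    le_rfl
  have h2k := two_pow_ge k hk
  have hρ2 : ρ ≤ 2 ^ k := by
    refine le_trans ?_ h2k
    rw [hρ]
    have : k ^ 2 ≤ k ^ 3 := Nat.pow_le_pow_right (by omega) (by norm_num)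
    omega
  have hβ : 2 * (ρ ^ 2) ^ k * (16 * k + 1) ^ k ≤ 2 ^ (1 + 3 * k ^ 2) := by
    calc 2 * (ρ ^ 2) ^ k * (16 * k + 1) ^ k ≤ 2 * ((2 ^ k) ^ 2) ^ k * (2 ^ k) ^ k := by
          gcongr; omega
      _ = 2 ^ (1 + 3 * k ^ 2) := by ring
  have hlam : 5 * (1 + 3 * k ^ 2) + 4 ≤ ρ := by rw [hρ]; nlinarith
  refine ⟨(N * (2 * (16 * k))) ^ k * (5 * (1 + 3 * k ^ 2) + 4), ?_, fun f s D hs H => ?_⟩
  · have h1 : ρ ≤ k ^ 3 := by
      rw [hρ]
      calc 16 * k ^ 2 ≤ k * k ^ 2 := by gcongr; omega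
        _ = k ^ 3 := by ring
    calc (N * (2 * (16 * k))) ^ k * (5 * (1 + 3 * k ^ 2) + 4) ≤ (ρ ^ (8 * k) * ρ) ^ k * ρ := by
          rw [hN]; gcongr; omega
      _ = ρ ^ (8 * k ^ 2 + k + 1) := by ring
      _ ≤ ρ ^ (10 * k ^ 2) := Nat.pow_le_pow_right hρ0 (by nlinarith)
      _ ≤ (k ^ 3) ^ (10 * k ^ 2) := by gcongr
      _ = k ^ (30 * k ^ 2) := by ring
  · have hk' : (64 : ℝ) ≤ k := by exact_mod_cast hk
    have hN' : (0 : ℝ) < N := by exact_mod_cast hN0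
    obtain ⟨hD, h⟩ := gadget_bound G (by positivity) _ hβ f s D hs H
    have e1 : ((N : ℝ) * (16 * k : ℕ) / k) = 16 * N := by push_cast; field_simp
    have e2 : ((N : ℝ) * (8 * k : ℕ) / 2) = (k / 8) * 2 * (16 * N) := by push_cast; ring
    rw [e1, e2, mul_pow, mul_pow] at h
    have h3 : (12 * (5 * ((1 + 3 * k ^ 2 : ℕ) : ℝ) + 4) * (k + 1)) ≤ 2 ^ k := by
      have : ((1000 * k ^ 3 : ℕ) : ℝ) ≤ (2 ^ k : ℕ) := by exact_mod_cast h2k
      push_cast at this ⊢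
      refine le_trans ?_ this
      have a1 : (5 * (1 + 3 * (k : ℝ) ^ 2) + 4) ≤ 16 * k ^ 2 := by nlinarith
      calc 12 * (5 * (1 + 3 * (k : ℝ) ^ 2) + 4) * (k + 1) ≤ 12 * (16 * (k : ℝ) ^ 2) * (2 * k) := by
            gcongr; linarith
        _ = 384 * (k : ℝ) ^ 3 := by ring
        _ ≤ 1000 * (k : ℝ) ^ 3 := by gcongr; norm_num
    have h4 : ((k : ℝ) / 8) ^ k * (2 ^ k * (16 * N) ^ k) ≤ D * (2 ^ k * (16 * N) ^ k) := by
      calc ((k : ℝ) / 8) ^ k * (2 ^ k * (16 * N) ^ k) = ((k : ℝ) / 8) ^ k * 2 ^ k * (16 * N) ^ k := by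
            ring
        _ ≤ _ := h
        _ = (12 * (5 * ((1 + 3 * k ^ 2 : ℕ) : ℝ) + 4) * (k + 1)) * ((16 * N) ^ k * D) := by ring
        _ ≤ 2 ^ k * ((16 * N) ^ k * D) := by gcongr
        _ = _ := by ring
    exact le_of_mul_le_mul_right h4 (by positivity)

end Crest.Agent.R210
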